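import Vale.Agent.P142.Schwarzian
import Vale.Agent.P142.Bazilevic

/-!
P142: Brennan's bound for Schwarzian norm at most `3.89` and for Bazilevič functions.
-/

namespace Vale.Agent.Results.P142.SchwarzianBazilevic

open Metric MeasureTheory Real Vale.Agent.P142

theorem result :
    (∀ f : ℂ → ℂ, DifferentiableOn ℂ f (ball 0 1) → (∀ z ∈ ball (0 : ℂ) 1, deriv f z ≠ 0) →
      (∀ z ∈ ball (0 : ℂ) 1, (1 - ‖z‖ ^ 2) ^ 2 * ‖schwarz f z‖ ≤ 389 / 100) →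
        (∃ C, ∀ r ∈ Set.Ioo (0 : ℝ) 1,
          circleAverage (fun z => ‖deriv f z‖ ^ (-2 : ℝ)) 0 r ≤ C * (1 - r) ^ (-1 : ℝ)) ∧
        ∀ t ∈ Set.Icc (-2 : ℝ) 0, IntegrableOn (fun z => ‖deriv f z‖ ^ t) (ball 0 1)) ∧
    (∀ (α β : ℝ) (f : ℂ → ℂ), 0 < α → IsBazilevic α β f →
        (∀ t : ℝ, t ≤ -2 → ∀ ε : ℝ, 0 < ε → ∃ C, ∀ r ∈ Set.Ioo (0 : ℝ) 1,
          circleAverage (fun z => ‖deriv f z‖ ^ t) 0 r ≤ C * (1 - r) ^ (-(|t| - 1 + ε))) ∧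
        ∀ t ∈ Set.Ioc (-2 : ℝ) 0, IntegrableOn (fun z => ‖deriv f z‖ ^ t) (ball 0 1)) :=
  ⟨fun _ hf hne hS => ⟨schwarz_mean hf hne hS, fun _ ht => schwarz_integrable hf hne hS ht⟩,
    fun _ _ _ hα hf => ⟨fun _ ht _ hε => bazilevic_mean hα hf ht hε,
      fun _ ht => bazilevic_integrable hα hf ht⟩⟩

end Vale.Agent.Results.P142.SchwarzianBazilevic
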